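import Mathlib

/-!
# P033: blocks in the first row of a circulant Hadamard matrix
-/

namespace Vale.Agent.Results.P033.Blocks

open Finset

/-- All terms are `1` or `-1`. -/
def IsSign (a : ℕ → ℝ) : Prop := ∀ n, a n = 1 ∨ a n = -1

/-- The circulant matrix with first row `h 0, ..., h (n - 1)`: entry `h ((j - i) mod n)`. -/
def circ (n : ℕ) (h : ℕ → ℝ) : Matrix (Fin n) (Fin n) ℝ :=
  Matrix.of fun i j => h ((j.val + n - i.val) % n)

/-- The circulant matrix with first row `h 0, ..., h (n - 1)` is a Hadamard matrix. -/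
def IsCircHad (n : ℕ) (h : ℕ → ℝ) : Prop :=
  (∀ j, j < n → h j = 1 ∨ h j = -1) ∧ circ n h * (circ n h).transpose = (n : ℝ) • 1

/-- The aperiodic autocorrelation of `a 0, ..., a (N - 1)` at shift `s`. -/
def auto (a : ℕ → ℝ) (N s : ℕ) : ℝ := ∑ n ∈ range (N - s), a n * a (n + s)

/-- Sum over a product length, block by block. -/
theorem sum_block (f : ℕ → ℝ) (m K : ℕ) :
    ∑ n ∈ range (m * K), f n = ∑ j ∈ range K, ∑ i ∈ range m, f (m * j + i) := by
  induction K with
  | zero => simp
  | succ K ih => rw [Nat.mul_succ, Finset.sum_range_add, ih, Finset.sum_range_succ]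

/-- The sequence whose block number `j` (of length `m`) is `c j` times the block `b`. -/
noncomputable def prodSeq (m : ℕ) (b c : ℕ → ℝ) (n : ℕ) : ℝ := b (n % m) * c (n / m)

theorem prodSeq_eq {m : ℕ} (b c : ℕ → ℝ) {i : ℕ} (hi : i < m) (j : ℕ) :
    prodSeq m b c (m * j + i) = b i * c j := by
  unfold prodSeq
  rw [Nat.mul_add_mod, Nat.mod_eq_of_lt hi, Nat.mul_add_div (by omega), Nat.div_eq_of_lt hi,
    add_zero]

theorem sq_one {b : ℕ → ℝ} (hb : IsSign b) (i : ℕ) : b i * b i = 1 := by
  rcases hb i with h | h <;> rw [h] <;> norm_num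

theorem auto_prod_m (M K : ℕ) {b c : ℕ → ℝ} (hb : IsSign b) :
    auto (prodSeq (M + 1) b c) ((M + 1) * (K + 1)) (M + 1)
      = (M + 1) * ∑ j ∈ range K, c j * c (j + 1) := by
  unfold auto
  have e : (M + 1) * (K + 1) - (M + 1) = (M + 1) * K := by
    rw [Nat.mul_succ]; omega
  rw [e, sum_block, Finset.mul_sum]
  refine Finset.sum_congr rfl fun j _ => ?_
  have : ∀ i ∈ range (M + 1), prodSeq (M + 1) b c ((M + 1) * j + i)
      * prodSeq (M + 1) b c ((M + 1) * j + i + (M + 1)) = c j * c (j + 1) := by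
    intro i hi
    rw [mem_range] at hi
    rw [show (M + 1) * j + i + (M + 1) = (M + 1) * (j + 1) + i by ring, prodSeq_eq b c hi,
      prodSeq_eq b c hi]
    linear_combination (c j * c (j + 1)) * sq_one hb i
  rw [Finset.sum_congr rfl this]
  simp

theorem auto_prod_M (M K : ℕ) {b c : ℕ → ℝ} (hc : IsSign c) :
    auto (prodSeq (M + 1) b c) ((M + 1) * (K + 1)) M
      = (K + 1) * (b 0 * b M) + (∑ i ∈ range M, b (i + 1) * b i)
        * ∑ j ∈ range K, c j * c (j + 1) := by
  unfold auto
  have e : (M + 1) * (K + 1) - M = (M + 1) * K + 1 := by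
    rw [Nat.mul_succ]; omega
  rw [e, Finset.sum_range_succ, sum_block]
  have h0 : prodSeq (M + 1) b c ((M + 1) * K) * prodSeq (M + 1) b c ((M + 1) * K + M)
      = b 0 * b M := by
    have h1 := prodSeq_eq (m := M + 1) b c (i := 0) (by omega) K
    rw [add_zero] at h1
    rw [h1, prodSeq_eq (m := M + 1) b c (i := M) (by omega) K]
    linear_combination (b 0 * b M) * sq_one hc K
  rw [h0]
  have : ∀ j ∈ range K, ∑ i ∈ range (M + 1), prodSeq (M + 1) b c ((M + 1) * j + i)
      * prodSeq (M + 1) b c ((M + 1) * j + i + M)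
      = (∑ i ∈ range M, b (i + 1) * b i) * (c j * c (j + 1)) + b 0 * b M := by
    intro j _
    rw [Finset.sum_range_succ', Finset.sum_mul]
    congr 1
    · refine Finset.sum_congr rfl fun i hi => ?_
      rw [mem_range] at hi
      rw [show (M + 1) * j + (i + 1) + M = (M + 1) * (j + 1) + i by ring,
        prodSeq_eq b c (by omega : i + 1 < M + 1), prodSeq_eq b c (by omega : i < M + 1)]
      ring
    · rw [add_zero]
      have h1 := prodSeq_eq (m := M + 1) b c (i := 0) (by omega) j
      rw [add_zero] at h1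
      rw [h1, prodSeq_eq (m := M + 1) b c (i := M) (by omega) j]
      linear_combination (b 0 * b M) * sq_one hc j
  rw [Finset.sum_congr rfl this, Finset.sum_add_distrib, Finset.mul_sum]
  simp
  ring

/-- The number of blocks of length `m` (among `k`) that are not `c j` times the block `b`. -/
noncomputable def bad (a : ℕ → ℝ) (m k : ℕ) (b c : ℕ → ℝ) : ℕ :=
  ((range k).filter fun j => ∃ i, i < m ∧ a (m * j + i) ≠ b i * c j).card

theorem dist_le {a b c : ℕ → ℝ} (ha : IsSign a) (hb : IsSign b) (hc : IsSign c) (m k : ℕ) :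
    ∑ n ∈ range (m * k), |a n - prodSeq m b c n| ≤ 2 * m * bad a m k b c := by
  rw [sum_block]
  have h1 : ∀ j ∈ range k, ∑ i ∈ range m, |a (m * j + i) - prodSeq m b c (m * j + i)|
      ≤ if (∃ i, i < m ∧ a (m * j + i) ≠ b i * c j) then (2 * m : ℝ) else 0 := by
    intro j _
    split_ifs with h
    · have : ∀ i ∈ range m, |a (m * j + i) - prodSeq m b c (m * j + i)| ≤ 2 := by
        intro i hi
        rw [mem_range] at hi
        rw [prodSeq_eq b c hi]
        rcases ha (m * j + i) with h1 | h1 <;> rcases hb i with h2 | h2 <;>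
          rcases hc j with h3 | h3 <;> rw [h1, h2, h3] <;> norm_num
      refine (Finset.sum_le_sum this).trans ?_
      simp
      linarith
    · push Not at h
      apply le_of_eq
      apply Finset.sum_eq_zero
      intro i hi
      rw [mem_range] at hi
      rw [prodSeq_eq b c hi, h i hi]
      simp
  refine (Finset.sum_le_sum h1).trans ?_
  rw [← Finset.sum_filter, Finset.sum_const, nsmul_eq_mul]
  unfold bad
  apply le_of_eq
  ring

theorem auto_diff {a a' : ℕ → ℝ} (ha : IsSign a) (ha' : IsSign a') (N s : ℕ) :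
    |auto a N s - auto a' N s| ≤ 2 * ∑ n ∈ range N, |a n - a' n| := by
  unfold auto
  rw [← Finset.sum_sub_distrib]
  refine (Finset.abs_sum_le_sum_abs _ _).trans ?_
  have h1 : ∀ n ∈ range (N - s), |a n * a (n + s) - a' n * a' (n + s)|
      ≤ |a n - a' n| + |a (n + s) - a' (n + s)| := by
    intro n _
    rcases ha n with h1 | h1 <;> rcases ha (n + s) with h2 | h2 <;>
      rcases ha' n with h3 | h3 <;> rcases ha' (n + s) with h4 | h4 <;>
      rw [h1, h2, h3, h4] <;> norm_num
  refine (Finset.sum_le_sum h1).trans ?_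
  rw [Finset.sum_add_distrib, two_mul]
  apply add_le_add
  · apply Finset.sum_le_sum_of_subset_of_nonneg
    · intro n hn
      rw [mem_range] at hn ⊢
      omega
    · intro n _ _
      positivity
  · by_cases hsN : s ≤ N
    · have e : ∑ n ∈ range N, |a n - a' n| = ∑ n ∈ range (s + (N - s)), |a n - a' n| := by
        rw [show s + (N - s) = N by omega]
      rw [e, Finset.sum_range_add]
      have h2 : ∑ n ∈ range (N - s), |a (n + s) - a' (n + s)|
          = ∑ n ∈ range (N - s), |a (s + n) - a' (s + n)| := by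
        refine Finset.sum_congr rfl fun n _ => ?_
        rw [add_comm n s]
      rw [h2]
      have : (0 : ℝ) ≤ ∑ n ∈ range s, |a n - a' n| :=
        Finset.sum_nonneg fun n _ => abs_nonneg _
      linarith
    · have : N - s = 0 := by omega
      rw [this]
      simp
      exact Finset.sum_nonneg fun n _ => abs_nonneg _

theorem prodSeq_sign {m : ℕ} {b c : ℕ → ℝ} (hb : IsSign b) (hc : IsSign c) :
    IsSign (prodSeq m b c) := by
  intro n
  unfold prodSeq
  rcases hb (n % m) with h1 | h1 <;> rcases hc (n / m) with h2 | h2 <;> rw [h1, h2] <;> norm_num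


theorem auto_wrap1 (M K : ℕ) {b c : ℕ → ℝ} (hb : IsSign b) :
    auto (prodSeq (M + 1) b c) ((M + 1) * (K + 1)) ((M + 1) * K) = (M + 1) * (c 0 * c K) := by
  unfold auto
  have e : (M + 1) * (K + 1) - (M + 1) * K = M + 1 := by
    rw [Nat.mul_succ]; omega
  rw [e]
  have : ∀ n ∈ range (M + 1), prodSeq (M + 1) b c n * prodSeq (M + 1) b c (n + (M + 1) * K)
      = c 0 * c K := by
    intro n hn
    rw [mem_range] at hn
    have h1 := prodSeq_eq b c hn 0
    rw [Nat.mul_zero, zero_add] at h1
    rw [h1, add_comm n, prodSeq_eq b c hn]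
    linear_combination (c 0 * c K) * sq_one hb n
  rw [Finset.sum_congr rfl this]
  simp

theorem auto_wrap2 (M K : ℕ) {b c : ℕ → ℝ} :
    auto (prodSeq (M + 1) b c) ((M + 1) * (K + 1)) ((M + 1) * K + 1)
      = (∑ i ∈ range M, b (i + 1) * b i) * (c 0 * c K) := by
  unfold auto
  have e : (M + 1) * (K + 1) - ((M + 1) * K + 1) = M := by
    rw [Nat.mul_succ]; omega
  rw [e, Finset.sum_mul]
  refine Finset.sum_congr rfl fun n hn => ?_
  rw [mem_range] at hn
  have h1 := prodSeq_eq b c (by omega : n < M + 1) 0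
  rw [Nat.mul_zero, zero_add] at h1
  rw [h1, show n + ((M + 1) * K + 1) = (M + 1) * K + (n + 1) by ring,
    prodSeq_eq b c (by omega : n + 1 < M + 1)]
  ring

theorem per_split (h : ℕ → ℝ) {n t : ℕ} (ht : 1 ≤ t) (htn : t < n) :
    ∑ j ∈ range n, h j * h ((j + t) % n) = auto h n t + auto h n (n - t) := by
  have e : ∑ j ∈ range n, h j * h ((j + t) % n)
      = ∑ j ∈ range ((n - t) + t), h j * h ((j + t) % n) := by
    rw [show (n - t) + t = n by omega]
  rw [e, Finset.sum_range_add]
  unfold auto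
  rw [show n - (n - t) = t by omega]
  congr 1
  · refine Finset.sum_congr rfl fun j hj => ?_
    rw [mem_range] at hj
    rw [Nat.mod_eq_of_lt (by omega)]
  · refine Finset.sum_congr rfl fun j hj => ?_
    rw [mem_range] at hj
    rw [show n - t + j + t = n + j by omega, Nat.add_mod_left, Nat.mod_eq_of_lt (by omega),
      show j + (n - t) = n - t + j by omega]
    ring

theorem per_zero {n : ℕ} {h : ℕ → ℝ} (H : IsCircHad n h) {t : ℕ} (ht : 1 ≤ t) (htn : t < n) :
    ∑ j ∈ range n, h j * h ((j + t) % n) = 0 := by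
  have h1 := congrFun (congrFun H.2 ⟨0, by omega⟩) ⟨n - t, by omega⟩
  rw [Matrix.mul_apply] at h1
  have hne : (⟨0, by omega⟩ : Fin n) ≠ ⟨n - t, by omega⟩ := by
    intro hh
    rw [Fin.mk.injEq] at hh
    omega
  rw [Matrix.smul_apply, Matrix.one_apply_ne hne, smul_zero] at h1
  rw [← h1, Finset.sum_range]
  refine Finset.sum_congr rfl fun j _ => ?_
  have hj := j.isLt
  simp only [circ, Matrix.of_apply, Matrix.transpose_apply]
  rw [show j.val + n - 0 = n + j.val by omega, Nat.add_mod_left, Nat.mod_eq_of_lt hj,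
    show j.val + n - (n - t) = j.val + t by omega]

/-- All nontrivial periodic autocorrelations vanish. -/
def PerZero (n : ℕ) (a : ℕ → ℝ) : Prop :=
  ∀ t, 1 ≤ t → t < n → ∑ j ∈ range n, a j * a ((j + t) % n) = 0

theorem sum_shift (n : ℕ) (g : ℕ → ℝ) :
    ∑ j ∈ range n, g ((j + 1) % n) = ∑ j ∈ range n, g j := by
  cases n with
  | zero => simp
  | succ N =>
    rw [Finset.sum_range_succ, Finset.sum_range_succ', Nat.mod_self]
    congr 1
    refine Finset.sum_congr rfl fun j hj => ?_
    rw [mem_range] at hj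
    rw [Nat.mod_eq_of_lt (by omega)]

theorem PerZero.succ {n : ℕ} {a : ℕ → ℝ} (h : PerZero n a) :
    PerZero n (fun j => a ((j + 1) % n)) := by
  intro t ht htn
  rw [← h t ht htn, ← sum_shift n (fun x => a x * a ((x + t) % n))]
  refine Finset.sum_congr rfl fun j _ => ?_
  simp only [Nat.mod_add_mod]
  rw [show j + t + 1 = j + 1 + t by ring]

theorem PerZero.shift {n : ℕ} {a : ℕ → ℝ} (h : PerZero n a) (hn : 0 < n) (r : ℕ) :
    PerZero n (fun j => a ((j + r) % n)) := by
  induction r with
  | zero =>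
    intro t ht htn
    rw [← h t ht htn]
    refine Finset.sum_congr rfl fun j hj => ?_
    rw [mem_range] at hj
    simp only [add_zero, Nat.mod_mod]
    rw [Nat.mod_eq_of_lt hj]
  | succ r ih =>
    have h1 := ih.succ
    have e : (fun j => a (((j + 1) % n + r) % n)) = fun j => a ((j + (r + 1)) % n) := by
      funext j
      rw [Nat.mod_add_mod, show j + 1 + r = j + (r + 1) by ring]
    rw [← e]
    exact h1

/-- The main estimate. -/
theorem main {a b c : ℕ → ℝ} (ha : IsSign a) (hb : IsSign b) (hc : IsSign c) {m k : ℕ}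
    (hm : 2 ≤ m) (hk : 2 ≤ k) (H : PerZero (m * k) a) :
    (k : ℝ) ≤ (16 * m - 8) * bad a m k b c := by
  obtain ⟨M, rfl⟩ : ∃ M, m = M + 1 := ⟨m - 1, by omega⟩
  obtain ⟨K, rfl⟩ : ∃ K, k = K + 1 := ⟨k - 1, by omega⟩
  set e : ℝ := ((bad a (M + 1) (K + 1) b c : ℕ) : ℝ) with he
  have hd := dist_le ha hb hc (M + 1) (K + 1)
  have hps := prodSeq_sign (m := M + 1) hb hc
  have hM1 : 1 ≤ M := by omega
  have hK1 : 1 ≤ K := by omega
  have hN : (M + 1) * (K + 1) = (M + 1) * K + M + 1 := by ring
  have hMK : 1 ≤ (M + 1) * K := Nat.mul_pos (by omega) hK1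
  have z1 := H M hM1 (by omega)
  have z2 := H (M + 1) (by omega) (by omega)
  rw [per_split a hM1 (by omega), show (M + 1) * (K + 1) - M = (M + 1) * K + 1 by omega] at z1
  rw [per_split a (by omega : 1 ≤ M + 1) (by omega),
    show (M + 1) * (K + 1) - (M + 1) = (M + 1) * K by omega] at z2
  have d1 := auto_diff ha hps ((M + 1) * (K + 1)) M
  have d2 := auto_diff ha hps ((M + 1) * (K + 1)) ((M + 1) * K + 1)
  have d3 := auto_diff ha hps ((M + 1) * (K + 1)) (M + 1)
  have d4 := auto_diff ha hps ((M + 1) * (K + 1)) ((M + 1) * K)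
  rw [auto_prod_M M K hc] at d1
  rw [auto_wrap2 M K] at d2
  rw [auto_prod_m M K hb] at d3
  rw [auto_wrap1 M K hb] at d4
  set G := ∑ j ∈ range K, c j * c (j + 1) with hG
  set A := ∑ i ∈ range M, b (i + 1) * b i with hA
  set w := c 0 * c K with hw
  have hAle : |A| ≤ M := by
    rw [hA]
    refine (Finset.abs_sum_le_sum_abs _ _).trans ?_
    have : ∀ i ∈ range M, |b (i + 1) * b i| ≤ 1 := by
      intro i _
      rcases hb i with h1 | h1 <;> rcases hb (i + 1) with h2 | h2 <;> rw [h1, h2] <;> norm_num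
    refine (Finset.sum_le_sum this).trans ?_
    simp
  have hbb : |b 0 * b M| = 1 := by
    rcases hb 0 with h1 | h1 <;> rcases hb M with h2 | h2 <;> rw [h1, h2] <;> norm_num
  push_cast at hd ⊢
  set D := ∑ n ∈ range ((M + 1) * (K + 1)), |a n - prodSeq (M + 1) b c n| with hD
  have hMpos : (1 : ℝ) ≤ M := by exact_mod_cast hM1
  have hKpos : (0 : ℝ) ≤ K := Nat.cast_nonneg K
  have h5 : ((M : ℝ) + 1) * |G + w| ≤ 4 * D := by
    have : |((M : ℝ) + 1) * (G + w)| ≤ 4 * D := by
      have h6 := abs_le.1 d3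
      have h7 := abs_le.1 d4
      rw [abs_le]
      constructor <;> linarith [h6.1, h6.2, h7.1, h7.2]
    rwa [abs_mul, abs_of_pos (by linarith : (0 : ℝ) < (M : ℝ) + 1)] at this
  have h8 : (K : ℝ) + 1 ≤ 4 * D + |A * (G + w)| := by
    have h6 := abs_le.1 d1
    have h7 := abs_le.1 d2
    have h9 : |((K : ℝ) + 1) * (b 0 * b M)| = (K : ℝ) + 1 := by
      rw [abs_mul, hbb, mul_one, abs_of_pos (by linarith)]
    have h10 := le_abs_self (A * (G + w))
    have h11 := neg_abs_le (A * (G + w))
    rw [← h9]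
    rw [abs_le]
    constructor <;> linarith [h6.1, h6.2, h7.1, h7.2]
  rw [abs_mul] at h8
  have h12 : |A| * |G + w| ≤ M * |G + w| := mul_le_mul_of_nonneg_right hAle (abs_nonneg _)
  have h13 : ((M : ℝ) + 1) * (K + 1) ≤ (2 * M + 1) * (4 * D) := by nlinarith
  have h14 : ((M : ℝ) + 1) * (K + 1) ≤ (2 * M + 1) * (4 * (2 * (M + 1) * e)) := by nlinarith
  have h15 : ((M : ℝ) + 1) * (K + 1) ≤ ((M : ℝ) + 1) * ((16 * (M + 1) - 8) * e) := by
    linarith
  exact le_of_mul_le_mul_left h15 (by linarith)

/-- The number of blocks `h (m j), ..., h (m j + m - 1)`, `j < k`, that are neither `b` nor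
`-b`. -/
noncomputable def different (h : ℕ → ℝ) (m k : ℕ) (b : ℕ → ℝ) : ℕ :=
  ((range k).filter fun j =>
    (∃ i, i < m ∧ h (m * j + i) ≠ b i) ∧ ∃ i, i < m ∧ h (m * j + i) ≠ -b i).card

open Classical in
theorem main2 {a b : ℕ → ℝ} (ha : IsSign a) (hb : IsSign b) {m k : ℕ}
    (hm : 2 ≤ m) (hk : 2 ≤ k) (H : PerZero (m * k) a) :
    (k : ℝ) ≤ (16 * m - 8) * different a m k b := by
  set c : ℕ → ℝ := fun j => if (∀ i, i < m → a (m * j + i) = b i) then 1 else -1 with hc
  have hcs : IsSign c := by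
    intro j
    simp only [hc]
    split_ifs
    · exact Or.inl rfl
    · exact Or.inr rfl
  refine (main ha hb hcs hm hk H).trans ?_
  have hm' : (2 : ℝ) ≤ m := by exact_mod_cast hm
  apply mul_le_mul_of_nonneg_left _ (by linarith)
  have : bad a m k b c ≤ different a m k b := by
    unfold bad different
    apply Finset.card_le_card
    intro j hj
    rw [Finset.mem_filter] at hj ⊢
    refine ⟨hj.1, ?_⟩
    obtain ⟨i, hi, hne⟩ := hj.2
    by_cases h0 : ∀ i, i < m → a (m * j + i) = b i
    · exfalso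
      apply hne
      rw [h0 i hi]
      simp only [hc]
      rw [if_pos h0, mul_one]
    · have h1 := h0
      push Not at h1
      refine ⟨h1, i, hi, ?_⟩
      intro h2
      apply hne
      rw [h2]
      simp only [hc]
      rw [if_neg h0]
      ring
  exact_mod_cast this

/-- **Result.** Let `m, k ≥ 2` and let `h` be the first row of a circulant Hadamard matrix of
order `m k`. Cut the cyclic sequence `h` at any place `r` into `k` consecutive blocks of length
`m`. For every sign block `b` of length `m`, at least `k / (16 m - 8)` of these blocks are neither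
`b` nor `-b`; in particular no cyclic shift of `h` has the product form `b i * c j`. -/
theorem result :
    (∀ (h b : ℕ → ℝ) (m k r : ℕ), IsSign h → IsSign b → 2 ≤ m → 2 ≤ k →
      IsCircHad (m * k) h →
      (k : ℝ) ≤ (16 * (m : ℝ) - 8) *
        (different (fun n => h ((n + r) % (m * k))) m k b : ℝ)) ∧
    (∀ (h b c : ℕ → ℝ) (m k r : ℕ), IsSign h → IsSign b → IsSign c → 2 ≤ m → 2 ≤ k →
      IsCircHad (m * k) h →
      ¬ ∀ j, j < k → ∀ i, i < m → h ((m * j + i + r) % (m * k)) = b i * c j) := by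
  have hz : ∀ (h : ℕ → ℝ) (m k r : ℕ), 2 ≤ m → 2 ≤ k → IsCircHad (m * k) h →
      PerZero (m * k) (fun n => h ((n + r) % (m * k))) := by
    intro h m k r hm hk H
    have h0 : PerZero (m * k) h := fun t ht htn => per_zero H ht htn
    exact h0.shift (Nat.mul_pos (by omega) (by omega)) r
  refine ⟨fun h b m k r hh hb hm hk H =>
    main2 (fun n => hh _) hb hm hk (hz h m k r hm hk H), ?_⟩
  intro h b c m k r hh hb hc hm hk H hall
  have h1 := main (a := fun n => h ((n + r) % (m * k))) (fun n => hh _) hb hc hm hk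
    (hz h m k r hm hk H)
  have h2 : bad (fun n => h ((n + r) % (m * k))) m k b c = 0 := by
    unfold bad
    rw [Finset.card_eq_zero, Finset.filter_eq_empty_iff]
    rintro j hj ⟨i, hi, hne⟩
    exact hne (hall j (mem_range.1 hj) i hi)
  rw [h2] at h1
  have hk' : (2 : ℝ) ≤ k := by exact_mod_cast hk
  norm_num at h1
  linarith

end Vale.Agent.Results.P033.Blocks
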