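import Mathlib
import Vale.Agent.Lib.P033.TwentyFive

/-!
P033, the circulant Hadamard conjecture.

If `h` is the first row of a real circulant Hadamard matrix of order `n`, `d` is a divisor of `n`
and some odd prime power `q ^ b` divides `n / d` and exceeds `4 d`, then no affine map
`j ↦ t j + c` of `ZMod n`, `t` a unit some power of which is `-1` modulo `n / d`, preserves `h`.
-/

namespace Vale.Agent.Results.P033.PowerSymmetry

open Finset Vale.Agent.P033.H25

/-- the real circulant matrix with first row `h` is a Hadamard matrix of order `n`: the entries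
are signs and `H * Hᵀ = n • 1`, `H i j = h (j - i)` -/
def IsCircHadamard (n : ℕ) [NeZero n] (h : ZMod n → ℤ) : Prop :=
  (∀ j, h j = 1 ∨ h j = -1) ∧
    (Matrix.of fun i j : ZMod n => h (j - i)) * (Matrix.of fun i j : ZMod n => h (j - i)).transpose
      = (n : ℤ) • (1 : Matrix (ZMod n) (ZMod n) ℤ)

theorem auto_of_hadamard (n : ℕ) [NeZero n] (h : ZMod n → ℤ) (hH : IsCircHadamard n h)
    (s : ZMod n) (hs : s ≠ 0) : ∑ j, h j * h (j + s) = 0 := by
  classical
  have h1 := congrFun (congrFun hH.2 0) (-s)
  rw [Matrix.mul_apply, Matrix.smul_apply, Matrix.one_apply_ne (fun h0 => hs (by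
    rw [← neg_neg s, ← h0, neg_zero]))] at h1
  simp only [Matrix.of_apply, Matrix.transpose_apply, sub_zero, smul_zero, sub_neg_eq_add] at h1
  exact h1

/-- **No affine symmetries reducing to a reflection.**  Let `h` be the first row of a real
circulant Hadamard matrix of order `n`, let `d ∣ n` and suppose that some odd prime power `q ^ b`
divides `n / d` and `4 d < q ^ b`. If `t` is a unit modulo `n` some power of which is congruent to
`-1` modulo `n / d`, then for no `c` does `h (t j + c) = h j` hold for all `j`. -/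
theorem result (n : ℕ) [NeZero n] (h : ZMod n → ℤ) (hH : IsCircHadamard n h)
    (q b d : ℕ) (hq : q.Prime) (hq2 : q ≠ 2) (hd : d ∣ n) (hqb : q ^ b ∣ n / d)
    (hdq : 4 * d < q ^ b)
    (t : ℤ) (ht : IsCoprime t (n : ℤ)) (k : ℕ) (htk : ((n / d : ℕ) : ℤ) ∣ t ^ k + 1) (c : ZMod n) :
    ¬ ∀ j : ZMod n, h ((t : ZMod n) * j + c) = h j := by
  exact twentyfive_main n h hH.1 (auto_of_hadamard n h hH) q b d hq hq2 hd hqb hdq t ht k htk c

end Vale.Agent.Results.P033.PowerSymmetry
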