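import Vale.Agent.Lib.P033.TwentyNineMore

/-!
# P033: structural restrictions on the first row of a circulant Hadamard matrix
-/

namespace Vale.Agent.Results.P033.ReflectionPeriods

open Vale.Agent.P033

/-- (1) reflection products `i ↦ h i * h (c - i)` have no period `p` with `2 p ≠ 0`;
(2) the periods of a shift product `i ↦ ∏_{j ∈ F} h (i + j)` are exactly the periods of `F`;
(3) the row is not a product row `h (i + m j) = a i * b j`. -/
theorem result :
    (∀ (n : ℕ) [NeZero n] (h : ZMod n → ℤ), IsCircHadamard n h → 4 < n →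
      (∃ w : ℕ, Odd w ∧ n = 4 * w) →
      (∀ c p : ZMod n, p + p ≠ 0 →
        ∃ i : ZMod n, h (i + p) * h (c - (i + p)) ≠ h i * h (c - i)) ∧
      (∀ (F : Finset (ZMod n)) (p : ZMod n),
        (∀ i : ZMod n, ∏ j ∈ F, h (i + p + j) = ∏ j ∈ F, h (i + j)) ↔
          ∀ s : ZMod n, s + p ∈ F ↔ s ∈ F)) ∧
    (∀ (n : ℕ) [NeZero n] (h : ZMod n → ℤ), IsCircHadamard n h →
      ∀ m L : ℕ, 2 ≤ m → 2 ≤ L → n = m * L → ¬ ∃ a b : ℕ → ℤ,
        ∀ i < m, ∀ j < L, h ((i + m * j : ℕ) : ZMod n) = a i * b j) := by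
  refine ⟨?_, ?_⟩
  · rintro n _ h hh h4 ⟨w, hw, hn⟩
    refine ⟨?_, ?_⟩
    · intro c p hp2
      by_contra hcon
      push Not at hcon
      exact reflection_period hn hw (by omega) hh.1 (paf hh) c p hp2 hcon
    · intro F p
      refine ⟨fun hper s => shift_period hn hw hh.1 (paf hh) F p hper s, fun hF i => ?_⟩
      refine Finset.prod_nbij' (fun j => j + p) (fun j => j - p) ?_ ?_ ?_ ?_ ?_
      · intro j hj; exact (hF j).mpr hj
      · intro j hj
        exact (hF (j - p)).mp (by simpa using hj)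
      · intro j _; simp
      · intro j _; simp
      · intro j _
        congr 1
        ring
  · rintro n _ h hh m L hm hL hn ⟨a, b, hab⟩
    exact product_int hm hL hn hh.1 (paf hh) a b hab

end Vale.Agent.Results.P033.ReflectionPeriods
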