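import Vale.Agent.Lib.P033.Eleven
import Vale.Agent.Lib.P033.ElevenQ
import Vale.Agent.Lib.P033.TwentyNineMore
import Vale.Agent.Lib.P033.TwentyFive
import Vale.Agent.Lib.P033.Seven

/-! # P033: structure of the first row of a circulant Hadamard matrix -/

open Finset

namespace Vale.Agent.Results.P033.RowStructure

open Vale.Agent.Lib.P033.Core Vale.Agent.Lib.P033.ElevenQ

/-- Necessary conditions on the first row `x` of a circulant Hadamard matrix of order `n`, in the
form `n = 4 * m`, `m > 1` odd (Turyn: no other order `> 4` is possible) and for every `n`. -/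
theorem result :
    (∀ (m : ℕ) (_ : Odd m) (_ : 1 < m) [NeZero (4 * m)] (x : ZMod (4 * m) → ℤ)
      (_ : IsCircHadamardRow (4 * m) x),
      (∀ c p : ZMod (4 * m), p + p ≠ 0 →
        ∃ i : ZMod (4 * m), x (i + p) * x (c - (i + p)) ≠ x i * x (c - i)) ∧
      (∀ (F : Finset (ZMod (4 * m))) (p : ZMod (4 * m)),
        (∀ i : ZMod (4 * m), ∏ j ∈ F, x (i + p + j) = ∏ j ∈ F, x (i + j)) ↔
          ∀ s : ZMod (4 * m), s + p ∈ F ↔ s ∈ F) ∧
      (∀ s : ZMod (4 * m), s ≠ 0 → s ≠ ((2 * m : ℕ) : ZMod (4 * m)) →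
        4 ∣ (univ.filter fun i : ZMod (4 * m) => x i = x (i + ((2 * m : ℕ) : ZMod (4 * m))) ∧
          x (i + s) = x (i + s + ((2 * m : ℕ) : ZMod (4 * m)))).card) ∧
      (∃ j : ZMod (4 * m), x (2 * j + 1 + ((2 * m : ℕ) : ZMod (4 * m))) ≠ x (2 * j + 1)) ∧
      ((range m).filter fun k : ℕ => w x (k : ZMod (4 * m)) = -1).card % 4 = m % 4 ∧
      (∀ s : ZMod (4 * m), 4 * s ≠ 0 →
        2 ∣ ((range m).filter fun k : ℕ => w x (k : ZMod (4 * m)) = -1 ∧
          w x ((k : ZMod (4 * m)) + s) = -1).card)) ∧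
    (∀ (n : ℕ) [NeZero n] (x : ZMod n → ℤ), IsCircHadamardRow n x →
      ∀ (q b d : ℕ), q.Prime → q ≠ 2 → d ∣ n → q ^ b ∣ n / d → 4 * d < q ^ b →
        ∀ (t : ℤ), IsCoprime t (n : ℤ) → ∀ k : ℕ, ((n / d : ℕ) : ℤ) ∣ t ^ k + 1 → ∀ c : ZMod n,
          ∃ j : ZMod n, x ((t : ZMod n) * j + c) ≠ x j) ∧
    (∀ (k L : ℕ), 2 ≤ k → 2 ≤ L → ∀ [NeZero (k * L)] (x : ZMod (k * L) → ℤ),
      IsCircHadamardRow (k * L) x →
      (∀ (r : ZMod (k * L)) (b : ℕ → ℤ), (∀ i, b i = 1 ∨ b i = -1) →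
        L ≤ (16 * k - 8) * ((range L).filter fun j : ℕ =>
          (∃ i, i < k ∧ x (r + ((k * j + i : ℕ) : ZMod (k * L))) ≠ b i) ∧
            ∃ i, i < k ∧ x (r + ((k * j + i : ℕ) : ZMod (k * L))) ≠ -b i).card) ∧
      ¬ ∃ a b : ℕ → ℤ, ∀ i < k, ∀ j < L,
        x ((i + k * j : ℕ) : ZMod (k * L)) = a i * b j) := by
  refine ⟨?_, ?_, ?_⟩
  · intro m hm h1 _ x hx
    obtain ⟨ha, hb, hc, hd⟩ := Vale.Agent.Lib.P033.Eleven.eleven_main m hm x hx
    obtain ⟨he, hf, hg⟩ := elevenQ_main m hm x hx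
    refine ⟨?_, ?_, ha, ?_, he, hf⟩
    · intro c p hp2
      by_contra hcon
      push Not at hcon
      exact Vale.Agent.P033.reflection_period rfl hm h1 hx.1 (fun t ht => autocorr hx ht)
        c p hp2 hcon
    · intro F p
      refine ⟨fun hper s => Vale.Agent.P033.shift_period rfl hm hx.1
        (fun t ht => autocorr hx ht) F p hper s, fun hF i => ?_⟩
      refine Finset.prod_nbij' (fun j => j + p) (fun j => j - p) ?_ ?_ ?_ ?_ ?_
      · intro j hj; exact (hF j).mpr hj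
      · intro j hj
        exact (hF (j - p)).mp (by simpa using hj)
      · intro j _; simp
      · intro j _; simp
      · intro j _
        congr 1
        ring
    · by_contra hcon
      push Not at hcon
      have := hd hcon
      omega
  · intro n _ x hx q b d hq hq2 hd hqb hdq t ht k htk c
    by_contra hcon
    push Not at hcon
    exact Vale.Agent.P033.H25.twentyfive_main n x hx.1 (fun s hs => autocorr hx hs) q b d hq hq2
      hd hqb hdq t ht k htk c hcon
  · intro k L hk hL _ x hx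
    refine ⟨fun r b hb => Vale.Agent.Lib.P033.Seven.seven_main k L hk hL x hx r b hb, ?_⟩
    rintro ⟨a, b, hab⟩
    exact Vale.Agent.P033.product_int hk hL rfl hx.1 (fun t ht => autocorr hx ht) a b hab

end Vale.Agent.Results.P033.RowStructure
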